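import Vale.Agent.P277Z.Spec2

/-!
# P277Z, block SUB: statements
-/

set_option linter.all false

open scoped Manifold ContDiff Topology
open Set Filter
open Vale.Agent.P272.K (Cm Chart At cHess)
open Vale.Agent.P297 (Place)
open Vale.Agent.P285.H281.FD (Bd)

noncomputable section

namespace Vale.Agent.P277Z

/-- **EXS**: sections of `A^m` on the smooth hypersurface `σ = 0` extend -/
def EXS : Prop := ∀ (n N : ℕ) (G : Geo n N) (A L : Bd G.W) (σ : L.ι → G.W → ℂ), G.PosB A →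
  G.LB L → G.Sec L σ → (∀ x ∈ G.F, ∀ k, x ∈ L.U k → σ k x = 0 → ∀ e : Chart n G.W, At e x →
    fderiv ℂ (fun z => σ k (e.symm z)) (e x) ≠ 0) →
  ∃ m₀ : ℕ, ∀ m, m₀ ≤ m → ∀ u : A.ι → G.W → ℂ,
    (∀ x ∈ G.F, ∀ i, x ∈ A.U i → ∃ f, Hol n f x ∧
      ∀ᶠ y in 𝓝 x, ∀ k, y ∈ L.U k → σ k y = 0 → f y = u i y) →
    (∀ᶠ y in 𝓝ˢ G.F, ∀ i j k, y ∈ A.U i → y ∈ A.U j → y ∈ L.U k → σ k y = 0 →
      u i y = A.g i j y ^ m * u j y) →
    ∃ s, G.Sec (A.pow m) s ∧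
      ∀ᶠ y in 𝓝ˢ G.F, ∀ i k, y ∈ A.U i → y ∈ L.U k → σ k y = 0 → s i y = u i y

variable {n N : ℕ} {K : Type} [Field K] [Algebra ℂ K]

/-- The geometric part of `Sub`. -/
structure Emb (G : Geo n N) (M : Mdl (n + 1) N K) (P : Place K) where
  /-- the embedding -/
  ι : G.W → M.W
  ind : Topology.IsInducing ι
  inj : Function.Injective ι
  imm : ∀ y (c : Chart n G.W) (e : Chart (n + 1) M.W), At c y → At e (ι y) →
    AnalyticAt ℂ (fun z => e (ι (c.symm z))) (c y) ∧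
      Function.Injective (fderiv ℂ (fun z => e (ι (c.symm z))) (c y))
  ext : ∀ y a, Hol n a y → ∃ f, Hol (n + 1) f (ι y) ∧ ∀ᶠ z in 𝓝 y, f (ι z) = a z
  mem : ∀ y, y ∈ G.F ↔ ι y ∈ M.F
  on : ∀ x : M.F, M.On x P ↔ (x : M.W) ∈ range ι
  base : ∀ y, G.π y = M.π (ι y)
  zero : ∀ (x : M.F) t, M.Gn x P t → ∀ᶠ z in 𝓝 (x : M.W), M.val t z = 0 ↔ z ∈ range ι
  off : ∀ x : M.F, ¬ M.On x P → ∀ᶠ z in 𝓝 (x : M.W), z ∉ range ι

end Vale.Agent.P277Z
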