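import Vale.Agent.P277Z.Sub.Defs
import Vale.Agent.P284Y.P.PshT
import Mathlib.Analysis.Calculus.InverseFunctionTheorem.ContDiff

/-!
# P277Z, block SUB: smooth hypersurfaces are manifolds
-/

set_option linter.all false

open scoped Manifold ContDiff Topology ComplexOrder
open Set Filter
open Vale.Agent.P272.K (Cm Chart At cHess)

noncomputable section

namespace Vale.Agent.P277Z.SubH

theorem exists_localInv {m : ℕ} {F : Cm m → Cm m} {p : Cm m} (hF : AnalyticAt ℂ F p)
    (hD : LinearMap.det (fderiv ℂ F p : Cm m →ₗ[ℂ] Cm m) ≠ 0) :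
    ∃ e : OpenPartialHomeomorph (Cm m) (Cm m), (⇑e = F) ∧ p ∈ e.source ∧
      (∀ q ∈ e.source, AnalyticAt ℂ F q) ∧ ∀ z ∈ e.target, AnalyticAt ℂ e.symm z := by
  let i : Cm m ≃L[ℂ] Cm m := (fderiv ℂ F p).toContinuousLinearEquivOfDetNeZero hD
  have hi : (i : Cm m →L[ℂ] Cm m) = fderiv ℂ F p :=
    ContinuousLinearMap.coe_toContinuousLinearEquivOfDetNeZero _ hD
  have hcd : ContDiffAt ℂ 1 F p := hF.contDiffAt
  have hfd : HasFDerivAt F (i : Cm m →L[ℂ] Cm m) p := by
    rw [hi]
    exact hF.differentiableAt.hasFDerivAt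
  let e₀ := hcd.toOpenPartialHomeomorph F hfd one_ne_zero
  have hp : p ∈ e₀.source := hcd.mem_toOpenPartialHomeomorph_source hfd one_ne_zero
  have h2 : ∀ᶠ q in 𝓝 p, ∃ j : Cm m ≃L[ℂ] Cm m, (j : Cm m →L[ℂ] Cm m) = fderiv ℂ F q := by
    have := i.nhds
    rw [hi] at this
    exact hF.fderiv.continuousAt this
  obtain ⟨O, hO, hOo, hpO⟩ := eventually_nhds_iff.1 (hF.eventually_analyticAt.and h2)
  refine ⟨e₀.restrOpen O hOo, rfl, ⟨hp, hpO⟩, fun q hq => (hO q hq.2).1, fun z hz => ?_⟩
  have hz' := (e₀.restrOpen O hOo).map_target hz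
  obtain ⟨j, hj⟩ := (hO _ hz'.2).2
  exact (e₀.restrOpen O hOo).analyticAt_symm (i := j) hz (hO _ hz'.2).1 hj.symm

section cht

variable {m : ℕ} {W : Type} [TopologicalSpace W] [ChartedSpace (Cm m) W]

theorem at_chart (x : W) : At (chartAt (Cm m) x) x := ⟨chart_mem_atlas _ _, mem_chart_source _ _⟩

theorem tend (e : Chart m W) {x : W} (h : x ∈ e.source) : Tendsto e.symm (𝓝 (e x)) (𝓝 x) :=
  e.tendsto_symm h

/-- `c` is a holomorphic system of coordinates -/
structure Cht (c : Chart m W) : Prop where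
  hol : ∀ y ∈ c.source, ∀ j, Hol m (fun w => c w j) y
  inv : ∀ y ∈ c.source, ∀ a, Hol m a y → AnalyticAt ℂ (fun z => a (c.symm z)) (c y)

theorem Cht.restr {c : Chart m W} (h : Cht c) {O : Set W} (hO : IsOpen O) :
    Cht (c.restrOpen O hO) := ⟨fun y hy => h.hol y hy.1, fun y hy => h.inv y hy.1⟩

variable [IsManifold 𝓘(ℂ, Cm m) ω W]

theorem hol_chart {e : Chart m W} {x : W} (h : At e x) (j : Fin m) : Hol m (fun w => e w j) x :=
  fun _ he' => analyticAt_pi_iff.1 (trans_an h he') j

theorem exists_cht {t : Fin m → W → ℂ} {x : W} (h : ∀ j, Hol m (t j) x)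
    (hd : ∀ e : Chart m W, At e x → jd t e x ≠ 0) :
    ∃ c : Chart m W, Cht c ∧ x ∈ c.source ∧ ∀ y ∈ c.source, ∀ j, c y j = t j y := by
  have he := at_chart (m := m) x
  generalize chartAt (Cm m) x = e at he
  obtain ⟨g, g1, g2, g3, g4⟩ := exists_localInv (F := fun z j => t j (e.symm z)) (p := e x)
    (analyticAt_pi_iff.2 fun j => h j e he) (hd e he)
  have k : ∀ y ∈ e.source, ∀ j, (e ≫ₕ g) y j = t j y := fun y hy j => by
    simp [g1, e.left_inv hy]
  refine ⟨e ≫ₕ g, ⟨fun y hy j => Hol.of_chart ⟨he.1, hy.1⟩ ?_, fun y hy a ha => ?_⟩, ⟨he.2, g2⟩,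
    fun y hy => k y hy.1⟩
  · refine (analyticAt_pi_iff.1 (g3 _ hy.2) j).congr ?_
    filter_upwards [e.open_target.mem_nhds (e.map_source hy.1)] with z hz
    rw [k _ (e.map_target hz)]
  · have h1 : AnalyticAt ℂ (fun z => a (e.symm z)) (g.symm (g (e y))) := by
      rw [g.left_inv (show e y ∈ g.source from hy.2)]
      exact ha e ⟨he.1, hy.1⟩
    exact h1.comp' (g4 _ (g.map_source hy.2))

end cht

variable {n : ℕ} {W : Type} [TopologicalSpace W] [ChartedSpace (Cm (n + 1)) W]

/-- the inclusion of a coordinate hyperplane -/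
def ins (i : Fin (n + 1)) : Cm n →L[ℂ] Cm (n + 1) :=
  LinearMap.toContinuousLinearMap
    { toFun v := i.insertNth 0 v
      map_add' u v := by
        funext j
        refine i.succAboveCases ?_ (fun j => ?_) j <;> simp
      map_smul' c v := by
        funext j
        refine i.succAboveCases ?_ (fun j => ?_) j <;> simp }

/-- the projection to a coordinate hyperplane -/
def drp (i : Fin (n + 1)) : Cm (n + 1) →L[ℂ] Cm n :=
  ContinuousLinearMap.pi fun j => ContinuousLinearMap.proj (i.succAbove j)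

theorem drp_apply (i : Fin (n + 1)) (v : Cm (n + 1)) (j : Fin n) : drp i v j = v (i.succAbove j) :=
  rfl

theorem ins_same (i : Fin (n + 1)) (v : Cm n) : ins i v i = 0 := by
  simp [ins]

theorem drp_ins (i : Fin (n + 1)) (v : Cm n) : drp i (ins i v) = v := by
  funext j
  simp [ins, drp_apply]

theorem ins_drp {i : Fin (n + 1)} {v : Cm (n + 1)} (h : v i = 0) : ins i (drp i v) = v := by
  funext j
  refine i.succAboveCases ?_ (fun j => ?_) j
  · rw [ins_same, h]
  · simp [ins, drp_apply]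

/-- `Z` is the hyperplane `z_i = 0` in the chart `c` -/
def Adp (Z : Set W) (c : Chart (n + 1) W) (i : Fin (n + 1)) : Prop :=
  Cht c ∧ ∀ w ∈ c.source, w ∈ Z ↔ c w i = 0

variable {Z : Set W} {c : Chart (n + 1) W} {i : Fin (n + 1)}

theorem Adp.mem (h : Adp Z c i) {v : Cm n} (hv : ins i v ∈ c.target) : c.symm (ins i v) ∈ Z :=
  (h.2 _ (c.map_target hv)).2 (by rw [c.right_inv hv, ins_same])

theorem Adp.ins_drp (h : Adp Z c i) {w : Z} (hw : w.1 ∈ c.source) :
    ins i (drp i (c w.1)) = c w.1 := SubH.ins_drp ((h.2 _ hw).1 w.2)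

open Classical in
/-- the chart of `Z` -/
def sl (h : Adp Z c i) (z₀ : Z) : Chart n Z where
  toFun w := drp i (c w.1)
  invFun v := if hv : ins i v ∈ c.target then ⟨c.symm (ins i v), h.mem hv⟩ else z₀
  source := Subtype.val ⁻¹' c.source
  target := ins i ⁻¹' c.target
  map_source' w hw := by
    rw [mem_preimage, h.ins_drp hw]
    exact c.map_source hw
  map_target' v hv := by
    rw [dif_pos (show ins i v ∈ c.target from hv)]
    exact c.map_target hv
  left_inv' w hw := by
    have : ins i (drp i (c w.1)) ∈ c.target := by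
      rw [h.ins_drp hw]
      exact c.map_source hw
    rw [dif_pos this]
    exact Subtype.ext (by simp only [h.ins_drp hw, c.left_inv hw])
  right_inv' v hv := by
    rw [dif_pos (show ins i v ∈ c.target from hv)]
    simp only [c.right_inv hv, drp_ins]
  open_source := c.open_source.preimage continuous_subtype_val
  open_target := c.open_target.preimage (ins i).continuous
  continuousOn_toFun := (drp i).continuous.comp_continuousOn
    (c.continuousOn.comp continuous_subtype_val.continuousOn fun _ h => h)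
  continuousOn_invFun := by
    rw [Topology.IsInducing.subtypeVal.continuousOn_iff]
    refine (c.continuousOn_symm.comp (ins i).continuous.continuousOn fun _ h => h).congr
      fun v hv => ?_
    simp only [Function.comp, dif_pos (show ins i v ∈ c.target from hv)]

theorem sl_apply (h : Adp Z c i) (z₀ w : Z) : sl h z₀ w = drp i (c w.1) := rfl

theorem sl_symm (h : Adp Z c i) (z₀ : Z) {y : Z} (hy : y.1 ∈ c.source) :
    ∀ᶠ v in 𝓝 (sl h z₀ y), ((sl h z₀).symm v).1 = c.symm (ins i v) := by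
  filter_upwards [(sl h z₀).open_target.mem_nhds ((sl h z₀).map_source hy)] with v hv
  exact congrArg Subtype.val (dif_pos (show ins i v ∈ c.target from hv))

theorem sl_an (h : Adp Z c i) (z₀ : Z) {y : Z} (hy : y.1 ∈ c.source) {a : W → ℂ}
    (ha : Hol (n + 1) a y.1) : AnalyticAt ℂ (fun v => a ((sl h z₀).symm v).1) (sl h z₀ y) := by
  have h1 : AnalyticAt ℂ (fun z => a (c.symm z)) (ins i (sl h z₀ y)) := by
    rw [sl_apply, h.ins_drp hy]
    exact h.1.inv _ hy a ha
  exact (h1.comp' ((ins i).analyticAt _)).congr ((sl_symm h z₀ hy).mono fun v hv => by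
    simp only [hv])

variable (n) in
/-- `Z` is a smooth hypersurface -/
def Hyp (Z : Set W) : Prop := ∀ z ∈ Z, ∃ (c : Chart (n + 1) W) (i : Fin (n + 1)), Adp Z c i ∧ z ∈ c.source

/-- the atlas of `Z` -/
@[reducible] def Hyp.cs (h : Hyp n Z) : ChartedSpace (Cm n) Z where
  atlas := {e | ∃ (c : Chart (n + 1) W) (i : Fin (n + 1)) (k : Adp Z c i) (z₀ : Z), e = sl k z₀}
  chartAt z := sl (h z.1 z.2).choose_spec.choose_spec.1 z
  mem_chart_source z := (h z.1 z.2).choose_spec.choose_spec.2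
  chart_mem_atlas z := ⟨_, _, _, z, rfl⟩

theorem Hyp.mf (h : Hyp n Z) : letI := h.cs; IsManifold 𝓘(ℂ, Cm n) ω Z := by
  letI := h.cs
  refine isManifold_of_contDiffOn _ _ _ ?_
  rintro e e' ⟨c, i, k, z, rfl⟩ ⟨c', i', k', z', rfl⟩ v hv
  simp only [mfld_simps] at hv ⊢
  have h1 := (sl k z).map_target hv.1
  have h2 : AnalyticAt ℂ (fun u => c' ((sl k z).symm u).1) (sl k z ((sl k z).symm v)) :=
    analyticAt_pi_iff.2 fun j => sl_an k z h1 (k'.1.hol _ hv.2 j)
  rw [(sl k z).right_inv hv.1] at h2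
  exact (((drp i').analyticAt _).comp' h2).contDiffAt.contDiffWithinAt

variable [IsManifold 𝓘(ℂ, Cm (n + 1)) ω W]

theorem Hyp.imm (h : Hyp n Z) : letI := h.cs; ∀ (y : Z) (c : Chart n Z) (e : Chart (n + 1) W),
    At c y → At e y.1 → AnalyticAt ℂ (fun z => e (c.symm z).1) (c y) ∧
      Function.Injective (fderiv ℂ (fun z => e (c.symm z).1) (c y)) := by
  letI := h.cs
  rintro y _ e ⟨⟨c, i, k, z, rfl⟩, hy⟩ he
  have h1 : AnalyticAt ℂ (fun v => e ((sl k z).symm v).1) (sl k z y) :=
    analyticAt_pi_iff.2 fun j => sl_an k z hy (hol_chart he j)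
  refine ⟨h1, ?_⟩
  have h2 : AnalyticAt ℂ (fun u => drp i (c (e.symm u))) (e ((sl k z).symm (sl k z y)).1) := by
    rw [(sl k z).left_inv hy]
    exact ((drp i).analyticAt _).comp' (analyticAt_pi_iff.2 fun j => k.1.hol _ hy j e he)
  have h3 := HasFDerivAt.comp (f := fun v => e ((sl k z).symm v).1) (sl k z y)
    h2.differentiableAt.hasFDerivAt h1.differentiableAt.hasFDerivAt
  have h4 : HasFDerivAt ((fun u => drp i (c (e.symm u))) ∘ fun v => e ((sl k z).symm v).1)
      (ContinuousLinearMap.id ℂ _) (sl k z y) := by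
    refine (hasFDerivAt_id _).congr_of_eventuallyEq ?_
    filter_upwards [(sl k z).open_target.mem_nhds ((sl k z).map_source hy),
      ((continuous_subtype_val.tendsto y).comp (tend (sl k z) hy)).eventually
        (e.open_source.mem_nhds he.2)] with v h5 h6
    simp only [Function.comp, id] at h6 ⊢
    rw [e.left_inv h6]
    exact (sl k z).right_inv h5
  have h5 := h3.unique h4
  exact fun u v huv => by
    have a := congrArg (fun L => L u) h5
    have b := congrArg (fun L => L v) h5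
    simp only [ContinuousLinearMap.comp_apply, ContinuousLinearMap.id_apply] at a b
    rw [← a, ← b, huv]

theorem Hyp.ext (h : Hyp n Z) : letI := h.cs; ∀ (y : Z) (a : Z → ℂ), Hol n a y →
    ∃ f, Hol (n + 1) f y.1 ∧ ∀ᶠ z in 𝓝 y, f z.1 = a z := by
  letI := h.cs
  intro y a ha
  obtain ⟨c, i, k, hy⟩ := h y.1 y.2
  refine ⟨fun w => a ((sl k y).symm (drp i (c w))), fun e he => ?_, ?_⟩
  · have h1 : AnalyticAt ℂ (fun v => a ((sl k y).symm v)) (drp i (c (e.symm (e y.1)))) := by
      rw [e.left_inv he.2]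
      exact ha _ ⟨⟨c, i, k, y, rfl⟩, hy⟩
    exact h1.comp' (f := fun u => drp i (c (e.symm u)))
      (((drp i).analyticAt _).comp' (analyticAt_pi_iff.2 fun j => k.1.hol _ hy j e he))
  · filter_upwards [(sl k y).open_source.mem_nhds hy] with z hz
    exact congrArg a ((sl k y).left_inv hz)

/-- restriction of positive definite Levi forms -/
theorem posDef_comp {p q : ℕ} {T : Cm p → Cm q} {z : Cm p} {f : Cm q → ℝ} (hT : AnalyticAt ℂ T z)
    (hi : Function.Injective (fderiv ℂ T z)) (hf : ContDiffAt ℝ 2 f (T z))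
    (h : (cHess f (T z)).PosDef) : (cHess (fun y => f (T y)) z).PosDef := by
  have h2 : ContDiffAt ℝ 2 (fun y => f (T y)) z := hf.comp z (P284Y.Ps.an_two hT)
  refine Matrix.PosDef.of_dotProduct_mulVec_pos ?_ fun x hx => ?_
  · rw [P272.K.N.cHess_eq_lev (P284Z.diff_fderiv h2)]
    exact P272.K.N.lev_isHermitian (P284Z.hess_symm h2)
  · rw [P284Z.cHess_quad h2, P284Y.Ps.levi_hol hf hT]
    have h3 : star (fderiv ℂ T z (star x)) ≠ 0 := fun h0 =>
      hx (star_eq_zero.1 (hi ((star_eq_zero.1 h0).trans (map_zero _).symm)))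
    have := h.dotProduct_mulVec_pos h3
    rwa [P284Z.cHess_quad hf, star_star] at this

end Vale.Agent.P277Z.SubH
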