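import Vale.Agent.P277Z.Sub.Res

/-!
# P277Z, block SUB: the residue map is onto
-/

set_option linter.all false

open scoped Manifold ContDiff Topology
open Set Filter
open Vale.Agent.P272.K (Cm Chart At cHess)
open Vale.Agent.P297 (Place)
open Vale.Agent.P285.H281.FD (Bd)
open Vale.Agent.P297Z

noncomputable section

namespace Vale.Agent.P277Z

open Lo SubH

variable {n N : ℕ} {K : Type} [Field K] [Algebra ℂ K]

theorem SubH.Eqn.smooth {M : Mdl n N K} {P : Place K} {L : Bd M.W} {σ : L.ι → M.W → ℂ}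
    (h : Eqn M P L σ) (hs : M.Snc {P}) : ∀ x ∈ M.F, ∀ k, x ∈ L.U k → σ k x = 0 →
      ∀ e : Chart n M.W, At e x → fderiv ℂ (fun z => σ k (e.symm z)) (e x) ≠ 0 := by
  intro x hx k hk h0 e he hd
  obtain ⟨t, h1, h2⟩ := hs.2 ⟨x, hx⟩
  obtain ⟨i, hi⟩ := h2 P rfl ((h.on_iff _).2 ⟨k, hk, h0⟩)
  obtain ⟨u, a1, a2, a3⟩ := h.on ⟨x, hx⟩ k _ hk hi
  have b1 : DifferentiableAt ℂ (fun z j => M.val (t j) (e.symm z)) (e x) :=
    (analyticAt_pi_iff.2 fun j => (h1.1 j).1 e he).differentiableAt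
  obtain ⟨v, hv⟩ := LinearMap.injective_iff_surjective.1 (det_ne_iff.1 (h1.2 e he))
    (Pi.single i 1)
  have b2 := (hasFDerivAt_pi'.1 b1.hasFDerivAt) i
  have b3 := ((a1 e he).differentiableAt.hasFDerivAt.fun_mul b2).congr_of_eventuallyEq
    ((tendsto_symm he).eventually a3)
  have b4 := congrArg (fun L => L v) (b3.fderiv.symm.trans hd)
  have b5 : M.val (t i) x = 0 := hi.van
  have b6 : fderiv ℂ (fun z j => M.val (t j) (e.symm z)) (e x) v = Pi.single i 1 := hv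
  simp [e.left_inv he.2, b5, b6] at b4
  exact a2 b4

namespace Emb

variable {M : Mdl (n + 1) N K} {P : Place K}

section geo

variable {G : Geo n N} (E : Emb G M P)

/-- the restriction of a line bundle -/
def rb (A : Bd M.W) : Bd G.W := ⟨A.ι, fun i => E.ι ⁻¹' A.U i, fun i j z => A.g i j (E.ι z)⟩

theorem rb_lb {A : Bd M.W} (h : M.LB A) : G.LB (E.rb A) :=
  ⟨fun i => (h.isOpen i).preimage E.cont, fun x hx => h.cover _ ((E.mem x).1 hx),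
    fun i j x b c => E.hol x _ (h.holo i j _ b c), fun i j _ => h.ne_zero i j _,
    fun i j k _ => h.cocycle i j k _⟩

theorem rb_pos {A : Bd M.W} (h : M.PosB A) : G.PosB (E.rb A) :=
  let ⟨ψ, a1, a2, a3⟩ := h
  ⟨fun i z => ψ i (E.ι z), E.rb_lb a1, fun i x hx => spsh_of_imm E.cont (E.imm x) (a2 i _ hx),
    fun i j _ => a3 i j _⟩

variable {L : Bd M.W} {σ : L.ι → M.W → ℂ}

theorem near_zs (h : Eqn M P L σ) {x : M.F} {p : G.W → Prop}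
    (hp : ∀ y, E.ι y = x → ∀ᶠ z in 𝓝 y, p z) :
    ∀ᶠ w in 𝓝 (x : M.W), w ∈ zs L σ → ∃ z, E.ι z = w ∧ p z := by
  by_cases hx : M.On x P
  · obtain ⟨y, hy⟩ := (E.on x).1 hx
    obtain ⟨t, ht⟩ := hx
    filter_upwards [hy ▸ E.push (hp y hy), E.zero x t ht, h.zero ht] with w a1 a2 a3 a4
    obtain ⟨z, hz⟩ := a2.1 (a3.1 a4)
    exact ⟨z, hz, a1 z hz⟩
  · exact (h.out hx).mono fun w a b => (a b).elim

theorem extend (hE : EXS) (h : Eqn M P L σ) (hs : M.Snc {P}) {A : Bd M.W} (hA : M.PosB A) :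
    ∃ m₀ : ℕ, ∀ m, m₀ ≤ m → ∀ ρ, G.Sec ((E.rb A).pow m) ρ → ∃ s, M.Sec (A.pow m) s ∧
      ∀ (y : G.F) i, E.ι y ∈ A.U i → ∀ᶠ z in 𝓝 (y : G.W), s i (E.ι z) = ρ i z := by
  obtain ⟨m₀, hm⟩ := hE _ _ M.toGeo A L σ hA h.lb h.sec (h.smooth hs)
  refine ⟨m₀, fun m k ρ hρ => ?_⟩
  have ex : ∀ i z, Function.extend E.ι (ρ i) 0 (E.ι z) = ρ i z := fun i z =>
    E.inj.extend_apply _ _ _
  obtain ⟨s, h1, h2⟩ := hm m k (fun i => Function.extend E.ι (ρ i) 0) (fun x hx i hi => by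
      by_cases ho : M.On ⟨x, hx⟩ P
      · obtain ⟨y, rfl⟩ : ∃ y, E.ι y = x := (E.on _).1 ho
        obtain ⟨f, a1, a2⟩ := E.ext y _ ((sec_at hρ ((E.mem y).2 hx)).self_of_nhds i hi).1
        refine ⟨f, a1, (E.near_zs h (x := ⟨_, hx⟩) (p := fun z => f (E.ι z) = ρ i z)
          fun y' hy' => E.inj hy' ▸ a2).mono fun w a j b c => ?_⟩
        obtain ⟨z, rfl, hz⟩ := a ⟨j, b, c⟩
        exact hz.trans (ex i z).symm
      · exact ⟨fun _ => 0, hol_const 0, (h.out ho).mono fun w a j b c => (a ⟨j, b, c⟩).elim⟩)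
    (eventually_nhdsSet_iff_forall.2 fun x hx => (E.near_zs h (x := ⟨x, hx⟩) fun y hy =>
      sec_at hρ ((E.mem y).2 (hy ▸ hx))).mono fun w a i j l b c d e => by
        obtain ⟨z, rfl, hz⟩ := a ⟨l, d, e⟩
        exact (ex i z).trans (((hz i b).2 j c).trans (congrArg _ (ex j z).symm)))
  refine ⟨s, h1, fun y i hi => ?_⟩
  obtain ⟨t, ht⟩ := E.on_pt y
  filter_upwards [E.pull (h2.filter_mono (nhds_le_nhdsSet (E.pt y).2)), E.pull (h.zero ht),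
    E.pull (E.zero _ t ht), E.pull ((hA.choose_spec.1.isOpen i).mem_nhds hi)] with z a1 a2 a3 a4
  obtain ⟨j, b1, b2⟩ := a2.2 (a3.2 ⟨z, rfl⟩)
  exact (a1 i j a4 b1 b2).trans (ex i z)

end geo

variable {L : Type} [Field L] [Algebra ℂ L] {S : Mdl n N L} (E : Emb S.toGeo M P) (hL : Loc M)

theorem res_surj (hE : EXS) (hB : Lbd M) (hS : ∀ A : Bd M.W, M.LB A → ∃ D s, M.Rep A D s)
    (hP : M.Proj) (hs : M.Snc {P}) (kL : Loc S) (kP : Pos S) (kB : Lbd S)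
    (kS : ∀ A : Bd S.W, S.LB A → ∃ D s, IsInt D ∧ S.Rep A D s) (u : L) :
    ∃ f ∈ P.ring, E.res hL f = u := by
  classical
  by_cases u0 : u = 0
  · exact ⟨0, zero_mem _, ((E.res_zero hL 0 (zero_mem _)).2 (.inl rfl)).trans u0.symm⟩
  obtain ⟨A, hA⟩ := M.proj_iff.1 hP
  obtain ⟨B, σ, h⟩ := exists_eqn hL hB P
  obtain ⟨m₀, hm⟩ := E.extend hE h hs hA
  obtain ⟨D, s, h1, h2⟩ := kS _ (E.rb_lb hA.choose_spec.1)
  obtain ⟨m₁, hm'⟩ := kP.gg D (S.div u ⊓ 0) (kB.amp _ D s h2 (E.rb_pos hA)) h1 fun Q => by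
    rw [Finsupp.inf_apply, Bi.div_apply kL]
    split_ifs
    exacts [⟨min (Q.ord u) 0, by simp⟩, ⟨0, by simp⟩]
  obtain ⟨y, hy⟩ := S.conn.nonempty
  set m := max m₀ m₁
  obtain ⟨f, a1, f0, -⟩ := hm' m (le_max_right _ _) ⟨y, hy⟩
  have a2 : ∀ Q, S.Pr Q → 0 ≤ (Q.ord f : ℝ) + (min (Q.ord u : ℝ) 0 + ((m : ℝ) • D) Q) :=
    fun Q hQ => by
      have := a1.resolve_left f0 Q hQ
      rwa [Finsupp.add_apply, Finsupp.inf_apply, Bi.div_pr kL u hQ] at this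
  have r := kB.pow _ D s m h2
  obtain ⟨ρ₁, b1, b2⟩ := kB.sec _ _ _ f r (.inr fun Q hQ => by
    linarith [a2 Q hQ, min_le_right (Q.ord u : ℝ) 0])
  obtain ⟨ρ₂, c1, c2⟩ := kB.sec _ _ _ (f * u) r (.inr fun Q hQ => by
    rw [Pl.ord_mul Q f0 u0, Int.cast_add]
    linarith [a2 Q hQ, min_le_left (Q.ord u : ℝ) 0])
  obtain ⟨s₁, b3, b4⟩ := hm m (le_max_left _ _) ρ₁ b1
  obtain ⟨s₂, c3, c4⟩ := hm m (le_max_left _ _) ρ₂ c1
  obtain ⟨D', s', r'⟩ := hS A hA.choose_spec.1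
  have r'' := hB.pow _ D' s' m r'
  obtain ⟨f₁, -, b5⟩ := hB.fn _ _ _ s₁ r'' b3
  obtain ⟨f₂, -, c5⟩ := hB.fn _ _ _ s₂ r'' c3
  obtain ⟨i, hi⟩ := hA.choose_spec.1.cover _ (E.pt ⟨y, hy⟩).2
  obtain ⟨t, w, -, -, d1, d2, d3⟩ := r''.loc (E.pt ⟨y, hy⟩) i hi
  obtain ⟨t', w', e0, -, e1, e2, e3⟩ := r.loc ⟨y, hy⟩ i hi
  have key : ∀ (g : K) (p : (A.pow m).ι → M.W → ℂ) (q : S.W → ℂ), M.Sec (A.pow m) p →
      M.Mul (L := A.pow m) (fun i y => s' i y ^ m) g p → (∀ᶠ z in 𝓝 y, p i (E.ι z) = q z) →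
      g * t ∈ P.ring ∧ ∀ᶠ z in 𝓝 y, S.val (E.res hL (g * t)) z = q z / w (E.ι z) := by
    intro g p q k1 k2 k3
    have k4 := hol_div ((sec_at k1 (E.pt ⟨y, hy⟩).2).self_of_nhds i hi).1 d1 d2
    have k5 : ∀ᶠ z in gen {(E.pt ⟨y, hy⟩ : M.W)}, M.val (g * t) z = p i z / w z := by
      filter_upwards [k2 _ i hi, d3, M.at_pt (M.val_mul g t) _, gen_of_nhds (hol_ne d1 d2)]
        with z l1 l2 l3 l4
      rw [l3, l1, l2, eq_div_iff l4]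
      ring
    have k6 := M.mem_O_of k4 k5
    refine ⟨Bi.on_ct (E.on_pt _) _ k6, ?_⟩
    filter_upwards [E.res_val hL ⟨y, hy⟩ _ k6, E.pull (M.val_eq (E.pt ⟨y, hy⟩).2 k4 k5), k3]
      with z l1 l2 l3
    rw [l1, l2, l3]
  obtain ⟨g1, g2⟩ := key f₁ s₁ _ b3 b5 (b4 ⟨y, hy⟩ i hi)
  obtain ⟨g3, g4⟩ := key f₂ s₂ _ c3 c5 (c4 ⟨y, hy⟩ i hi)
  have g5 : E.res hL (f₂ * t) = u * E.res hL (f₁ * t) := by
    refine S.eq_of_val ⟨y, hy⟩ ?_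
    filter_upwards [gen_of_nhds g2, gen_of_nhds g4, b2 ⟨y, hy⟩ i hi, c2 ⟨y, hy⟩ i hi,
      S.at_pt (S.val_mul f u) ⟨y, hy⟩, S.at_pt (S.val_mul u _) ⟨y, hy⟩] with z l1 l2 l3 l4 l5 l6
    rw [l6, l1, l2, l3, l4, l5]
    ring
  have g6 : E.res hL (f₁ * t) ≠ 0 := fun l0 => by
    obtain ⟨z, l1, l2, l3, l4, l5, l6, l7⟩ := ((gen_of_nhds g2).and ((b2 ⟨y, hy⟩ i hi).and
      (e3.and ((gen_of_nhds (hol_ne e1 e2)).and ((S.at_pt (S.val_ne f0) ⟨y, hy⟩).and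
      ((S.at_pt (S.val_ne e0) ⟨y, hy⟩).and (gen_of_nhds (E.pull (hol_ne d1 d2))))))))).exists
    rw [l0, S.val_zero, l2] at l1
    exact div_ne_zero (mul_ne_zero l5 (l3.trans_ne (mul_ne_zero l4 l6))) l7 l1.symm
  obtain ⟨g7, g8⟩ := not_or.1 ((E.res_zero hL _ g1).not.1 g6)
  have g9 := mul_mem g3 ((Pl.ord_eq_zero_iff P g7).1
    (le_antisymm (not_lt.1 g8) (Pl.ord_nonneg_of_mem P g1))).2
  refine ⟨_, g9, mul_right_cancel₀ g6 ?_⟩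
  rw [← E.res_mul hL _ g9 _ g1, inv_mul_cancel_right₀ g7, g5]

end Emb

theorem sub_of (h0 : MK) (hE : EXS) (h1 : LOC (n + 1)) (h2 : SEC (n + 1)) (h3 : LBD (n + 1))
    (k1 : LOC n) (k2 : SEC n) (k3 : LBD n) (k4 : POS n) : SUB n := by
  intro N K _ _ M hM P hs
  have hS : ∀ A : Bd M.W, M.LB A → ∃ D s, M.Rep A D s := fun A hA =>
    let ⟨D, s, _, _, a, b⟩ := h2 N K M hM A hA
    ⟨D, s, hA, a, b⟩
  obtain ⟨G, hG, ⟨E⟩⟩ := exists_emb (h1 N K M hM) (h3 N K M hM) hS hM hs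
  obtain ⟨L, _, _, S, rfl⟩ := h0 n N G
  exact ⟨L, _, _, S, hG, ⟨E.toSub (h1 N K M hM) (E.res_surj _ hE (h3 N K M hM) hS hM hs
    (k1 N L S hG) (k4 N L S hG) (k3 N L S hG) fun A hA =>
      let ⟨D, s, _, c, a, b⟩ := k2 N L S hG A hA
      ⟨D, s, c, hA, a, b⟩)⟩⟩

end Vale.Agent.P277Z
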