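import Vale.Agent.P277Z.Sub.Defs
import Vale.Agent.P277Z.Ps.Opn
import Vale.Agent.P277Z.Van.Nadel

/-!
# P277Z, block SUB: extension of sections from a smooth hypersurface
-/

set_option linter.all false

open scoped Manifold ContDiff Topology ComplexOrder ENNReal
open Set Filter MeasureTheory
open Vale.Agent.P272.K Vale.Agent.P301.H599 Vale.Agent.P285Z
open Vale.Agent.P285.H281.FD (Bd)
open Vale.Agent.P301.H98 (nrm IsSection)
open Vale.Agent.P301.H862 (powL)
open TopologicalSpace (Opens)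

noncomputable section

namespace Vale.Agent.P277Z

namespace SubH

open Pos Van Ps

theorem dne_chart {n : ℕ} {W : Type} [TopologicalSpace W] [ChartedSpace (Cm n) W]
    [IsManifold 𝓘(ℂ, Cm n) ω W] {a : W → ℂ} {y : W} {e e' : Chart n W} (ha : Hol n a y)
    (he : At e y) (he' : At e' y) (h : fderiv ℂ (fun z => a (e.symm z)) (e y) ≠ 0) :
    fderiv ℂ (fun z => a (e'.symm z)) (e' y) ≠ 0 := fun h0 => by
  have h1 : HasFDerivAt (fun z => a (e'.symm z)) (0 : Cm n →L[ℂ] ℂ) (e' (e.symm (e y))) := by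
    rw [e.left_inv he.2, ← h0]
    exact (ha e' he').differentiableAt.hasFDerivAt
  have h2 := (HasFDerivAt.comp (f := fun z => e' (e.symm z)) (e y) h1
    (trans_an he' he).differentiableAt.hasFDerivAt).congr_of_eventuallyEq
      (f₁ := fun z => a (e.symm z)) (by
        filter_upwards [(tendsto_symm he).eventually (e'.open_source.mem_nhds he'.2)] with z hz
        exact (congrArg a (e'.left_inv hz)).symm)
  exact h (h2.fderiv.trans (ContinuousLinearMap.zero_comp _))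

theorem smz_near {n N : ℕ} {G : Geo n N} {L : Bd G.W} {σ : L.ι → G.W → ℂ} (hL : G.LB L)
    (hσ : G.Sec L σ) (hd : ∀ x ∈ G.F, ∀ k, x ∈ L.U k → σ k x = 0 → ∀ e : Chart n G.W, At e x →
      fderiv ℂ (fun z => σ k (e.symm z)) (e x) ≠ 0) :
    ∀ᶠ y in 𝓝ˢ G.F, ∀ k, y ∈ L.U k → σ k y = 0 → ∀ e : Chart n G.W, At e y →
      fderiv ℂ (fun z => σ k (e.symm z)) (e y) ≠ 0 := by
  refine eventually_nhdsSet_iff_forall.2 fun x hx => ?_
  obtain ⟨l, hl⟩ := hL.cover x hx
  have h1 := hσ.filter_mono (nhds_le_nhdsSet hx)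
  have h2 := (h1.self_of_nhds l hl).1
  by_cases h0 : σ l x = 0
  · have he := at_chartAt (n := n) x
    generalize chartAt (Cm n) x = c at he
    filter_upwards [h1.eventually_nhds, (hL.isOpen l).mem_nhds hl, c.open_source.mem_nhds he.2,
      (c.continuousAt he.2).eventually ((h2 c he).fderiv.continuousAt.eventually_ne
        (hd x hx l hl h0 c he))] with y a1 a2 a3 a4 k hk hy e hey h5
    refine dne_chart (a1.self_of_nhds l a2).1 ⟨he.1, a3⟩ hey a4 ?_
    have b1 := ((hL.holo l k y a2 hk e hey).differentiableAt.hasFDerivAt.fun_mul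
      ((a1.self_of_nhds k hk).1 e hey).differentiableAt.hasFDerivAt).congr_of_eventuallyEq
      (f₁ := fun z => σ l (e.symm z)) (by
        filter_upwards [(tendsto_symm hey).eventually (a1.and (((hL.isOpen l).eventually_mem a2).and
          ((hL.isOpen k).eventually_mem hk)))] with z hz
        exact (hz.1 l hz.2.1).2 k hz.2.2)
    rw [b1.fderiv, h5, e.left_inv hey.2, hy]
    ext v
    simp
  · filter_upwards [h1, (hL.isOpen l).mem_nhds hl, (Ps.hol_contAt h2).eventually_ne h0]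
      with y a1 a2 a3 k hk hy
    exact (a3 (by rw [(a1 l a2).2 k hk, hy, mul_zero])).elim

theorem fin_mul {d : ℕ} {f g : Cm d → ℂ} {p : Cm d} (hf : AnalyticAt ℂ f p) (hg : AnalyticAt ℂ g p)
    (h : fderiv ℂ g p ≠ 0) {β : ℝ} (hβ : β < 1) : ∃ V ∈ 𝓝 p, ∫⁻ z in V,
      ENNReal.ofReal (‖f z‖ ^ 2) * ENNReal.ofReal (‖g z‖ ^ 2) ^ (-β) ≠ ⊤ := by
  obtain ⟨V, hV, h1⟩ := skl d g p hg h β hβ
  obtain ⟨O, p1, p2, p3⟩ := eventually_nhds_iff.1 (((hf.continuousAt.norm.pow 2).eventually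
    (gt_mem_nhds (lt_add_one _))).and hV)
  refine ⟨O, p2.mem_nhds p3, ne_top_of_le_ne_top ?_ (setLIntegral_mono' p2.measurableSet
    fun z hz => mul_le_mul_left (ENNReal.ofReal_le_ofReal (p1 z hz).1.le) _)⟩
  rw [lintegral_const_mul' _ _ ENNReal.ofReal_ne_top]
  exact ENNReal.mul_ne_top ENNReal.ofReal_ne_top
    (ne_top_of_le_ne_top h1 (lintegral_mono_set fun z hz => (p1 z hz).2))

end SubH

open SubH Pos Van Ps

theorem exs_of (h : ExtStmt) : EXS := by
  intro n N G A L σ ⟨ψ, hA, hψ, hc⟩ hL hs hd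
  obtain ⟨O, c₀, hF, hO, h0, h1, h2, h3⟩ := exists_nb G
    (((LB_near hA).and (LB_near hL)).and (hs.and (smz_near hL hs hd)))
  have := sigmaCompact O
  obtain ⟨w, hw⟩ := exists_isHermitian (d := n) (X := O)
  set A' := resL hA O fun y hy => (hO hy).1.1
  set L' := resL hL O fun y hy => (hO hy).1.2
  obtain ⟨ρ, hρ⟩ := exists_isMetric L'
  have hσ : IsMetric A' fun i y => ψ i y.1 :=
    ⟨fun i e x he hi => (spsh_res (hψ i x.1 hi) e he).1, fun i j x hi hj => hc i j x.1 hi hj⟩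
  have pd : ∀ T, PDOn T (curvature A' fun i y => ψ i y.1) := fun T e x he _ => by
    obtain ⟨i, hi⟩ := A'.cover x
    rw [curvature_eq hσ he hi]
    exact (spsh_res (hψ i x.1 hi) e he).2
  have hs' : IsSection L' fun k y => σ k y.1 :=
    ⟨fun k e x he hk => hol_res ((hO x.2).2.1 k hk).1 e he,
      fun k l x hk hl => ((hO x.2).2.1 k hk).2 l hl⟩
  have hz : ∀ T, SmZ T L' fun k y => σ k y.1 := fun T k e x he hk _ hx => by
    obtain ⟨e', a1, a2, a3⟩ := chart_fn he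
    rw [a2, ← (a3 _ (σ k)).fderiv_eq]
    exact (hO x.2).2.2 k hk hx e' a1
  obtain ⟨C, hC, hp⟩ := cmp (cform_curv hσ) ((cform_kc hw).add (cform_curv hρ)) h3 (pd _)
  refine ⟨⌈C⌉₊ + 1, fun m hm u u1 u2 => ?_⟩
  have hm' : 0 < (m : ℝ) - C := by
    have : ((⌈C⌉₊ + 1 : ℕ) : ℝ) ≤ m := by exact_mod_cast hm
    push_cast at this
    linarith [Nat.le_ceil C]
  have ht : Continuous fun y : O => ∑ i, ‖G.π y i‖ ^ 2 := continuous_iff_continuousAt.2 fun y =>
    tendsto_finsetSum _ fun i _ => (Ps.hol_contAt (hol_res (h1 y y.2 i))).norm.pow 2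
  have hV : ∀ᶠ x in 𝓝ˢ G.F, ∃ i f, ∀ᶠ y in 𝓝 x, y ∈ A.U i ∧ Hol n f y ∧
      (∀ k, y ∈ L.U k → σ k y = 0 → f y = u i y) ∧ ∀ i j k, y ∈ A.U i → y ∈ A.U j → y ∈ L.U k →
        σ k y = 0 → u i y = A.g i j y ^ m * u j y :=
    eventually_nhdsSet_iff_forall.2 fun x hx => by
      obtain ⟨i, hi⟩ := hA.cover x hx
      obtain ⟨f, a1, a2⟩ := u1 x hx i hi
      exact (((hA.isOpen i).eventually_mem hi).and (a1.near.and (a2.and
        (u2.filter_mono (nhds_le_nhdsSet hx))))).eventually_nhds.mono fun y hy => ⟨i, f, hy⟩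
  obtain ⟨V, v1, v2, v3⟩ := mem_nhdsSet_iff_exists.1 hV
  obtain ⟨r, hr, h4⟩ := (h3.diff (v1.preimage continuous_subtype_val)).exists_forall_le'
    (a := 0) ht.continuousOn fun y hy => lt_of_le_of_ne (by positivity) fun k => hy.2 (v2
      ((h2 y y.2).1 (funext fun i => by
        simpa using (Finset.sum_eq_zero_iff_of_nonneg fun _ _ => by positivity).1 k.symm i
          (Finset.mem_univ i))))
  obtain ⟨c, c1, c2, c3⟩ : ∃ c : ℝ, 0 < c ∧ c ≤ c₀ ∧ c < r :=
    ⟨min c₀ (r / 2), lt_min h0 (half_pos hr), min_le_left _ _,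
      (min_le_right _ _).trans_lt (half_lt_self hr)⟩
  have hK : IsCompact {y : O | y ∈ univ ∧ ∑ i, ‖G.π y i‖ ^ 2 ≤ c} :=
    h3.of_isClosed_subset (isClosed_univ.inter (isClosed_le ht continuous_const))
      fun y hy => hy.2.trans c2
  have hE := JoAux.exh_sub (d := n) (t := fun y : O => ∑ i, ‖G.π y i‖ ^ 2) (c := c) isOpen_univ
    (fun y _ => psdAt_sq fun i => hol_res (h1 y y.2 i)) hK
  obtain ⟨s, s1, s2⟩ := h n O w hw _ _ ⟨hK, fun y hy => ⟨hy.1, hy.2.le⟩, _, _, A', _, hE, hσ, pd _⟩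
    _ (powL A' m) _ (isMetric_pow hσ m) _ L' ρ _ hρ hs' (hz _) 0 Fin.elim0 Fin.elim0
    (fun j => j.elim0) (fun e x he hx => by
      have a := ((pd univ e x he trivial).smul (Complex.zero_lt_real.2 hm')).add_posSemidef
        (hp e x he (hx.2.trans c2))
      have b := curvature_pow hσ m e x he
      beta_reduce at a b ⊢
      rw [b]
      refine (congrArg Matrix.PosDef ?_).mp a
      simp only [sc, Finset.univ_eq_empty, Finset.sum_empty]
      push_cast
      module) (fun i y => u i y.1) (fun δ d0 d1 k x hx hk hx0 => by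
      obtain ⟨i, f, hf⟩ := v3 (by_contra fun k' => absurd (h4 x ⟨hx.2.trans c2, k'⟩)
        (not_le.2 (hx.2.trans_lt c3)) : x.1 ∈ V)
      obtain ⟨T, t1, t2, t3⟩ := eventually_nhds_iff.1 hf
      have b : SecOn (powL A' m) (Subtype.val ⁻¹' T) fun j y => A.g j i y.1 ^ m * f y.1 :=
        ⟨fun j e y he hj hy => ((hol_res (hA.holo j i y.1 hj (t1 _ hy).1) e he).pow m).mul
          (hol_res (t1 _ hy).2.1 e he), fun j l y hj hl hy => by
            show _ = A.g j l y.1 ^ m * _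
            rw [← mul_assoc, ← mul_pow, hA.cocycle j l i y.1 hj hl (t1 _ hy).1]⟩
      refine ⟨_, _, t2.preimage continuous_subtype_val, t3, b, fun j l y hj hl hy h5 => ?_, ?_⟩
      · show A.g j i y.1 ^ m * f y.1 = u j y.1
        rw [(t1 _ hy).2.2.1 l hl h5, (t1 _ hy).2.2.2 j i l hj (t1 _ hy).1 hl h5]
      · obtain ⟨e, j, l, hf⟩ := exists_fr (powL A' m) (Fin.elim0 : Fin 0 → Sys n O) x
        refine ⟨e, j, _, fr_cons (S₀ := Sys.one L' ρ _ hρ hs') hf hk, ex_one.2 ?_⟩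
        simpa only [Finset.univ_eq_empty, Finset.prod_empty, mul_one] using
          fin_mul (b.holo j e x hf.1 hf.2.1 t3) (hs'.holo k e x hf.1 hk)
            (hz univ k e x hf.1 hk trivial hx0) (sub_lt_self 1 d0))
  have hF' : G.F ⊆ Subtype.val '' {y : O | y ∈ univ ∧ ∑ i, ‖G.π y i‖ ^ 2 < c} := fun y hy =>
    ⟨⟨y, hF hy⟩, ⟨trivial, by simp [(h2 y (hF hy)).2 hy, c1]⟩, rfl⟩
  refine ⟨fun i => ext (s i), sec_ext (L := A.pow m) (M := powL A' m) (fun _ _ => Iff.rfl)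
    (fun _ _ _ => rfl) hE.isOpen hF' s1, ?_⟩
  filter_upwards [(O.isOpen.isOpenMap_subtype_val _ hE.isOpen).mem_nhdsSet.2 hF']
  rintro _ ⟨y, hy, rfl⟩ i k hi hk h5
  exact (ext_val _ y).trans (s2 i k y hi hk hy h5)

end Vale.Agent.P277Z
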