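import Vale.Agent.P277Z.Sub.Main
import Vale.Agent.P277Z.Sub.Exs
import Vale.Agent.P277Z.Van.Sing
import Vale.Agent.P277Z.Lo.Mk
import Vale.Agent.P277Z.Lbd.All

/-!
# P277Z, block SUB: summary
-/

namespace Vale.Agent.P277Z

theorem exs : EXS := exs_of Van.ext

theorem sub_of' {n : ℕ} (h : LOC (n + 1)) (k : LOC n) (p : POS n) : SUB n :=
  sub_of mk exs h (Lb.sec_of (Ps.ggf_of Van.gg) h) (Lb.lbd_of h) k
    (Lb.sec_of (Ps.ggf_of Van.gg) k) (Lb.lbd_of k) p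

end Vale.Agent.P277Z
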