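import Vale.Agent.P277Z.Sub.Hyp
import Vale.Agent.P277Z.Lo.Base
import Vale.Agent.P277Z.Bir.Alg

/-!
# P277Z, block SUB: the manifold of a smooth prime divisor
-/

set_option linter.all false

open scoped Manifold ContDiff Topology ComplexOrder
open Set Filter
open Vale.Agent.P272.K (Cm Chart At cHess)
open Vale.Agent.P297 (Place)
open Vale.Agent.P285.H281.FD (Bd)
open Vale.Agent.P297Z

noncomputable section

namespace Vale.Agent.P277Z.SubH

open Lo

section imm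

variable {p q : ℕ} {S W : Type} [TopologicalSpace S] [ChartedSpace (Cm p) S] [TopologicalSpace W]
  [ChartedSpace (Cm q) W] {ι : S → W} {y : S}

theorem comp_near {α : Type} (hc : Continuous ι) {c : Chart p S} {e : Chart q W} (h : At c y)
    (he : At e (ι y)) (a : W → α) :
    (fun z => a (e.symm (e (ι (c.symm z))))) =ᶠ[𝓝 (c y)] fun z => a (ι (c.symm z)) := by
  filter_upwards [((hc.tendsto y).comp (tendsto_symm h)).eventually
    (e.open_source.mem_nhds he.2)] with z hz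
  exact congrArg a (e.left_inv hz)

theorem hol_of_imm (hc : Continuous ι) (hi : ∀ (c : Chart p S) (e : Chart q W), At c y →
    At e (ι y) → AnalyticAt ℂ (fun z => e (ι (c.symm z))) (c y)) {a : W → ℂ}
    (ha : Hol q a (ι y)) : Hol p (fun z => a (ι z)) y := fun c h => by
  have he := at_chartAt (n := q) (ι y)
  have h2 : AnalyticAt ℂ (fun z => a ((chartAt (Cm q) (ι y)).symm z))
      (chartAt (Cm q) (ι y) (ι (c.symm (c y)))) := by
    rw [c.left_inv h.2]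
    exact ha _ he
  exact (h2.comp' (f := fun z => chartAt (Cm q) (ι y) (ι (c.symm z))) (hi c _ h he)).congr
    (comp_near hc h he a)

theorem spsh_of_imm (hc : Continuous ι) (hi : ∀ (c : Chart p S) (e : Chart q W), At c y →
    At e (ι y) → AnalyticAt ℂ (fun z => e (ι (c.symm z))) (c y) ∧
      Function.Injective (fderiv ℂ (fun z => e (ι (c.symm z))) (c y))) {a : W → ℝ}
    (ha : Spsh q a (ι y)) : Spsh p (fun z => a (ι z)) y := fun c h => by
  have he := at_chartAt (n := q) (ι y)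
  generalize chartAt (Cm q) (ι y) = e at he
  obtain ⟨h1, h2⟩ := hi c e h he
  have h3 : ContDiffAt ℝ ∞ (fun z => a (e.symm z)) (e (ι (c.symm (c y)))) ∧
      (cHess (fun z => a (e.symm z)) (e (ι (c.symm (c y))))).PosDef := by
    rw [c.left_inv h.2]
    exact ha e he
  have h4 := comp_near hc h he a
  refine ⟨(h3.1.comp (f := fun z => e (ι (c.symm z))) (c y)
    (h1.contDiffAt.restrict_scalars ℝ)).congr_of_eventuallyEq h4.symm, ?_⟩
  have h5 := posDef_comp h1 h2 (h3.1.of_le (by norm_cast)) h3.2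
  have h6 : cHess (fun z => a (e.symm (e (ι (c.symm z))))) (c y) =
      cHess (fun z => a (ι (c.symm z))) (c y) := by
    ext j k
    have h7 : (fun z => ((a (e.symm (e (ι (c.symm z)))) : ℝ) : ℂ)) =ᶠ[𝓝 (c y)]
        fun z => ((a (ι (c.symm z)) : ℝ) : ℂ) := h4.mono fun z hz => by simp only [hz]
    have h8 : P272.K.dzb k (fun z => ((a (e.symm (e (ι (c.symm z)))) : ℝ) : ℂ)) =ᶠ[𝓝 (c y)]
        P272.K.dzb k fun z => ((a (ι (c.symm z)) : ℝ) : ℂ) :=
      (h7.fderiv (𝕜 := ℝ)).mono fun z hz => by simp only [P272.K.dzb, hz]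
    simp only [cHess, Matrix.of_apply, P272.K.dz, h8.fderiv_eq]
  exact h6 ▸ h5

end imm

variable {n N : ℕ} {K : Type} [Field K] [Algebra ℂ K]

section eqn

variable {M : Mdl n N K} {P : Place K}

theorem ord_of_unit {x : M.F} {g : K} {u : M.W → ℂ} (hu : Hol n u x) (h0 : u x ≠ 0)
    (h : ∀ᶠ y in gen {(x : M.W)}, M.val g y = u y) (hP : M.On x P) : P.ord g = 0 :=
  have h1 := M.mem_O_of hu h
  Pl.ord_unit P (Bi.on_ct hP _ h1) (Bi.on_ct hP _ (M.inv_mem h1 (M.val_eq_at hu h ▸ h0)))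

/-- `σ` is a section with divisor `P` -/
structure Eqn (M : Mdl n N K) (P : Place K) (L : Bd M.W) (σ : L.ι → M.W → ℂ) : Prop where
  lb : M.LB L
  sec : M.Sec L σ
  on : ∀ (x : M.F) k t, (x : M.W) ∈ L.U k → M.Gn x P t → ∃ u : M.W → ℂ, Hol n u x ∧ u x ≠ 0 ∧
    ∀ᶠ y in 𝓝 (x : M.W), σ k y = u y * M.val t y
  off : ∀ (x : M.F) k, (x : M.W) ∈ L.U k → ¬ M.On x P → σ k x ≠ 0

theorem sec_at {G : Geo n N} {L : Bd G.W} {σ : L.ι → G.W → ℂ} (h : G.Sec L σ) {x : G.W}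
    (hx : x ∈ G.F) : ∀ᶠ y in 𝓝 x, ∀ i, y ∈ L.U i → Hol n (σ i) y ∧
      ∀ j, y ∈ L.U j → σ i y = L.g i j y * σ j y := h.filter_mono (nhds_le_nhdsSet hx)

theorem exists_eqn (hL : Loc M) (hB : Lbd M) (P : Place K) : ∃ L σ, Eqn M P L σ := by
  classical
  obtain ⟨L, s, hs⟩ := hB.ex (Finsupp.single P 1) fun Q => by
    rw [Finsupp.single_apply]
    split_ifs
    exacts [⟨1, by simp⟩, ⟨0, by simp⟩]
  obtain ⟨σ, h1, h2⟩ := hB.sec L _ s 1 hs (Or.inr fun Q _ => by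
    rw [Finsupp.single_apply]
    split_ifs <;> simp)
  refine ⟨L, σ, hs.lb, h1, fun x k t hk ht => ?_, fun x k hk hx => ?_⟩
  · obtain ⟨t', u, a1, a2, a3, a4, a5⟩ := hs.loc x k hk
    have t0 := Bi.gn_ne ht
    obtain ⟨b1, b2⟩ := Bi.unit_of hL (x := x) (u := t' / t) fun Q hQ => by
      have := a2 Q hQ
      rw [Pl.ord_div Q a1 t0]
      rw [Finsupp.single_apply] at this
      split_ifs at this with e
      · subst e
        rw [ht.ord]
        have : P.ord t' = 1 := by exact_mod_cast this.symm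
        omega
      · rw [hL.other x P Q t ht hQ (Ne.symm e)]
        have : Q.ord t' = 0 := by exact_mod_cast this.symm
        omega
    have b3 := M.val_mul_at b1 b2
    rw [mul_inv_cancel₀ (div_ne_zero a1 t0), M.val_one] at b3
    refine ⟨fun y => u y * M.val (t' / t) y, hol_mul a3 b1,
      mul_ne_zero a4 (left_ne_zero_of_mul (b3 ▸ one_ne_zero)), hol_eq_of_gen
        ((sec_at h1 x.2).self_of_nhds k hk).1 (hol_mul (hol_mul a3 b1) ht.mem) ?_⟩
    filter_upwards [h2 x k hk, a5, M.at_pt (M.val_mul (t' / t) t) x] with y c1 c2 c3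
    rw [div_mul_cancel₀ _ t0] at c3
    rw [c1, M.val_one, c2, c3]
    ring
  · refine (hB.nz L _ s 1 σ x k hs h1 h2 hk).2 ⟨one_ne_zero, fun Q hQ => ?_⟩
    rw [Finsupp.single_apply, if_neg fun e => hx (by rwa [e])]
    simp

variable {L : Bd M.W} {σ : L.ι → M.W → ℂ}

/-- the zero set -/
def zs (L : Bd M.W) (σ : L.ι → M.W → ℂ) : Set M.W := {y | ∃ k, y ∈ L.U k ∧ σ k y = 0}

theorem Eqn.near (h : Eqn M P L σ) {x : M.W} (hx : x ∈ M.F) {k : L.ι} (hk : x ∈ L.U k) :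
    ∀ᶠ y in 𝓝 x, y ∈ zs L σ ↔ σ k y = 0 := by
  filter_upwards [sec_at h.sec hx, (h.lb.isOpen k).mem_nhds hk] with y h1 h2
  exact ⟨fun ⟨j, a, b⟩ => by rw [(h1 k h2).2 j a, b, mul_zero], fun a => ⟨k, h2, a⟩⟩

theorem Eqn.zero (h : Eqn M P L σ) {x : M.F} {t : K} (ht : M.Gn x P t) :
    ∀ᶠ y in 𝓝 (x : M.W), y ∈ zs L σ ↔ M.val t y = 0 := by
  obtain ⟨k, hk⟩ := h.lb.cover x x.2
  obtain ⟨u, a1, a2, a3⟩ := h.on x k t hk ht
  filter_upwards [h.near x.2 hk, a3, hol_ne a1 a2] with y b1 b2 b3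
  rw [b1, b2, mul_eq_zero, or_iff_right b3]

theorem Eqn.out (h : Eqn M P L σ) {x : M.F} (hx : ¬ M.On x P) :
    ∀ᶠ y in 𝓝 (x : M.W), y ∉ zs L σ := by
  obtain ⟨k, hk⟩ := h.lb.cover x x.2
  filter_upwards [h.near x.2 hk, hol_ne ((sec_at h.sec x.2).self_of_nhds k hk).1
    (h.off x k hk hx)] with y b1 b2
  rwa [b1]

theorem Eqn.on_iff (h : Eqn M P L σ) (x : M.F) : M.On x P ↔ (x : M.W) ∈ zs L σ :=
  ⟨fun ⟨_, ht⟩ => (h.zero ht).self_of_nhds.2 ht.van,
    fun hx => by_contra fun k => (h.out k).self_of_nhds hx⟩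

theorem Eqn.cpt (h : Eqn M P L σ) : IsCompact (M.F ∩ zs L σ) := by
  refine M.cpt.of_isClosed_subset (isOpen_compl_iff.1 (isOpen_iff_mem_nhds.2 fun x hx => ?_))
    inter_subset_left
  by_cases hF : x ∈ M.F
  · exact (h.out (x := ⟨x, hF⟩) fun k => hx ⟨hF, (h.on_iff _).1 k⟩).mono fun y a b => a b.2
  · exact mem_of_superset (M.cpt.isClosed.isOpen_compl.mem_nhds hF) fun y a b => a b.1

/-- the line bundle of the part of the zero set in `A` -/
def part (L : Bd M.W) (σ : L.ι → M.W → ℂ) (A O : Set M.W) : Bd M.W where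
  ι := Option L.ι
  U
    | some k => L.U k ∩ A ∩ O
    | none => interior {y | y ∈ A → y ∉ zs L σ}
  g
    | some k, some l => L.g k l
    | some k, none => σ k
    | none, some l => fun y => (σ l y)⁻¹
    | none, none => fun _ => 1

theorem Eqn.conn (h : Eqn M P L σ) (hB : Lbd M)
    (hS : ∀ L : Bd M.W, M.LB L → ∃ D s, M.Rep L D s) : IsPreconnected (M.F ∩ zs L σ) := by
  refine (isPreconnected_iff_subset_of_fully_disjoint_closed h.cpt.isClosed).2
    fun u v hu hv huv hd => by_contra fun hc => ?_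
  obtain ⟨⟨b, hb, hb'⟩, a, ha, ha'⟩ :=
    (not_or.1 hc).imp not_subset.1 not_subset.1
  obtain ⟨A, B, hA, hB', h1, h2, h3⟩ := SeparatedNhds.of_isCompact_isCompact (h.cpt.inter_right hu)
    (h.cpt.inter_right hv) (hd.mono inter_subset_right inter_subset_right)
  obtain ⟨O, hO, hF, hs⟩ := mem_nhdsSet_iff_exists.1 h.sec
  have nz : ∀ {k y}, y ∈ L.U k ∩ A ∩ O → y ∈ interior {y | y ∈ A → y ∉ zs L σ} → σ k y ≠ 0 :=
    fun a b c => interior_subset b a.1.2 ⟨_, a.1.1, c⟩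
  have inB : ∀ x ∈ B, x ∈ interior {y | y ∈ A → y ∉ zs L σ} := fun x hx =>
    mem_interior_iff_mem_nhds.2 (mem_of_superset (hB'.mem_nhds hx) fun y a b =>
      (disjoint_left.1 h3 b a).elim)
  have lb : M.LB (part L σ A O) := by
    refine ⟨?_, fun x hx => ?_, ?_, ?_, ?_⟩
    · rintro (_ | k)
      exacts [isOpen_interior, ((h.lb.isOpen k).inter hA).inter hO]
    · by_cases hx' : x ∈ zs L σ
      · rcases huv ⟨hx, hx'⟩ with k | k
        · obtain ⟨j, hj⟩ := h.lb.cover x hx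
          exact ⟨some j, ⟨hj, h1 ⟨⟨hx, hx'⟩, k⟩⟩, hF hx⟩
        · exact ⟨none, inB x (h2 ⟨⟨hx, hx'⟩, k⟩)⟩
      · exact ⟨none, mem_interior_iff_mem_nhds.2 ((h.out (x := ⟨x, hx⟩) fun k =>
          hx' ((h.on_iff _).1 k)).mono fun y a _ => a)⟩
    · rintro (_ | k) (_ | l) x a b
      exacts [hol_const 1, hol_inv (hs b.2 l b.1.1).1 (nz b a), (hs a.2 k a.1.1).1,
        h.lb.holo k l x a.1.1 b.1.1]
    · rintro (_ | k) (_ | l) x a b
      exacts [one_ne_zero, inv_ne_zero (nz b a), nz a b, h.lb.ne_zero k l x a.1.1 b.1.1]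
    · rintro (_ | k) (_ | l) (_ | m) x a b c <;> simp only [part]
      · exact one_mul _
      · exact one_mul _
      · exact inv_mul_cancel₀ (nz b a)
      · rw [(hs b.2 l b.1.1).2 m c.1.1, mul_inv, mul_right_comm,
          inv_mul_cancel₀ (h.lb.ne_zero l m x b.1.1 c.1.1), one_mul]
      · exact mul_one _
      · rw [(hs a.2 k a.1.1).2 m c.1.1, mul_inv_cancel_right₀ (nz c b)]
      · exact ((hs a.2 k a.1.1).2 l b.1.1).symm
      · exact h.lb.cocycle k l m x a.1.1 b.1.1 c.1.1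
  let s' : (part L σ A O).ι → M.W → ℂ := fun i => match i with
    | some k => σ k
    | none => fun _ => 1
  have hs' : M.Sec (part L σ A O) s' := .of_forall fun y => by
    rintro (_ | k) a
    · refine ⟨hol_const 1, ?_⟩
      rintro (_ | l) b
      exacts [(one_mul _).symm, (inv_mul_cancel₀ (nz b a)).symm]
    · refine ⟨(hs a.2 k a.1.1).1, ?_⟩
      rintro (_ | l) b
      exacts [(mul_one _).symm, (hs a.2 k a.1.1).2 l b.1.1]
  obtain ⟨D, s, hr⟩ := hS _ lb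
  obtain ⟨f, -, hf⟩ := hB.fn _ D s s' hr hs'
  obtain ⟨f0, e1⟩ := (hB.nz _ D s f s' ⟨b, hb.1⟩ none hr hs' hf
    (inB b (h2 ⟨hb, (huv hb).resolve_left hb'⟩))).1 one_ne_zero
  have e2 := e1 P ((h.on_iff _).2 hb.2)
  obtain ⟨k, hk⟩ := h.lb.cover a ha.1
  have hk' : a ∈ (part L σ A O).U (some k) :=
    ⟨⟨hk, h1 ⟨ha, (huv ha).resolve_right ha'⟩⟩, hF ha.1⟩
  have ho : M.On ⟨a, ha.1⟩ P := (h.on_iff _).2 ha.2
  obtain ⟨t', u', a1, a2, a3, a4, a5⟩ := hr.loc ⟨a, ha.1⟩ (some k) hk'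
  obtain ⟨t, ht⟩ := id ho
  obtain ⟨w, b1, b2, b3⟩ := h.on ⟨a, ha.1⟩ k t hk ht
  have t0 := Bi.gn_ne ht
  have e3 := ord_of_unit (g := f * t' / t) (hol_div b1 a3 a4) (div_ne_zero b2 a4) (by
    filter_upwards [hf ⟨a, ha.1⟩ (some k) hk', a5, gen_of_nhds b3, gen_of_nhds (hol_ne a3 a4),
      M.at_pt (M.val_ne t0) ⟨a, ha.1⟩, M.at_pt (M.val_div (f * t') t) ⟨a, ha.1⟩,
      M.at_pt (M.val_mul f t') ⟨a, ha.1⟩] with y c1 c2 c3 c4 c5 c6 c7
    have c8 : w y * M.val t y = M.val f y * (u' y * M.val t' y) := by rw [← c3, ← c2, ← c1]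
    rw [c6, c7, div_eq_div_iff c5 c4, c8]
    ring) ho
  rw [Pl.ord_div P (mul_ne_zero f0 a1) t0, Pl.ord_mul P f0 a1, ht.ord] at e3
  rw [a2 P ho] at e2
  have e4 : P.ord f + P.ord t' = 0 := by exact_mod_cast e2
  omega

end eqn

theorem exists_emb {M : Mdl (n + 1) N K} {P : Place K} (hL : Loc M) (hB : Lbd M)
    (hS : ∀ L : Bd M.W, M.LB L → ∃ D s, M.Rep L D s) (hP : M.Proj) (hs : M.Snc {P}) :
    ∃ G : Geo n N, G.Proj ∧ Nonempty (Emb G M P) := by
  obtain ⟨L, σ, h⟩ := exists_eqn hL hB P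
  set Z : Set M.W := {z | z ∈ zs L σ ∧ ∃ (c : Chart (n + 1) M.W) (i : Fin (n + 1)),
    Adp (zs L σ) c i ∧ z ∈ c.source} with hZ
  have hy : Hyp n Z := fun z ⟨_, c, i, h1, h2⟩ => ⟨c, i, ⟨h1.1, fun w hw =>
    ⟨fun a => (h1.2 w hw).1 a.1, fun a => ⟨(h1.2 w hw).2 a, c, i, h1, hw⟩⟩⟩, h2⟩
  have near : ∀ x : M.F, M.On x P → ∀ᶠ y in 𝓝 (x : M.W), y ∈ Z ↔ y ∈ zs L σ := fun x hx => by
    obtain ⟨t, h1, h2⟩ := hs.2 x
    obtain ⟨i, hi⟩ := h2 P rfl hx
    obtain ⟨c, c1, c2, c3⟩ := exists_cht (t := fun j => M.val (t j)) (fun j => (h1.1 j).1) h1.2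
    obtain ⟨O, a1, a2, a3⟩ := eventually_nhds_iff.1 (h.zero hi)
    filter_upwards [(c.restrOpen O a2).open_source.mem_nhds ⟨c2, a3⟩] with y hy
    exact ⟨fun a => a.1, fun a => ⟨a, c.restrOpen O a2, i, ⟨c1.restr a2, fun w hw =>
      (a1 w hw.2).trans (by rw [← c3 w hw.1]; rfl)⟩, hy⟩⟩
  have on : ∀ x : M.F, M.On x P ↔ (x : M.W) ∈ Z := fun x =>
    ⟨fun a => (near x a).self_of_nhds.2 ((h.on_iff x).1 a), fun a => (h.on_iff x).2 a.1⟩
  have im : (Subtype.val : Z → M.W) '' (Subtype.val ⁻¹' M.F) = M.F ∩ zs L σ := by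
    rw [image_preimage_eq_inter_range, Subtype.range_val]
    exact Set.ext fun x => and_congr_right fun hx =>
      ((on ⟨x, hx⟩).symm.trans (h.on_iff ⟨x, hx⟩))
  have rv : ∀ y, y ∈ Z ↔ y ∈ range (Subtype.val : Z → M.W) := fun y =>
    ⟨fun a => ⟨⟨y, a⟩, rfl⟩, fun ⟨z, a⟩ => a ▸ z.2⟩
  letI := hy.cs
  haveI := hy.mf
  have hol : ∀ (y : Z) a, Hol (n + 1) a y.1 → Hol n (fun z : Z => a z.1) y := fun y a =>
    hol_of_imm continuous_subtype_val fun c e a b => (hy.imm y c e a b).1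
  obtain ⟨x₀, hx₀⟩ := hs.1 P rfl
  let G : Geo n N :=
    { W := Z
      F := Subtype.val ⁻¹' M.F
      cpt := Subtype.isCompact_iff.2 (im ▸ h.cpt)
      conn := ⟨⟨⟨x₀, (on x₀).1 hx₀⟩, x₀.2⟩,
        Topology.IsInducing.subtypeVal.isPreconnected_image.1 (im ▸ h.conn hB hS)⟩
      π := fun z => M.π z.1
      hol := fun x hx i => hol x _ (M.hol x.1 hx i)
      fib := (continuous_subtype_val.tendsto_nhdsSet (mapsTo_preimage _ _)).eventually M.fib }
  obtain ⟨A, ψ, a1, a2, a3⟩ := hP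
  refine ⟨G, ⟨⟨A.ι, fun i => Subtype.val ⁻¹' A.U i, fun i j z => A.g i j z.1⟩, fun i z => ψ i z.1,
    ⟨fun i => (a1.isOpen i).preimage continuous_subtype_val, fun x hx => a1.cover x.1 hx,
      fun i j x b c => hol x _ (a1.holo i j x.1 b c), fun i j x => a1.ne_zero i j x.1,
      fun i j k x => a1.cocycle i j k x.1⟩,
    fun i x hx => spsh_of_imm continuous_subtype_val (hy.imm x) (a2 i x.1 hx),
    fun i j x => a3 i j x.1⟩, ⟨⟨Subtype.val, Topology.IsInducing.subtypeVal, Subtype.val_injective,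
      hy.imm, hy.ext, fun _ => Iff.rfl, fun x => ?_, fun _ => rfl, fun x t ht => ?_,
      fun x hx => ?_⟩⟩⟩
  · exact (on x).trans (rv x)
  · filter_upwards [near x ⟨t, ht⟩, h.zero ht] with y b1 b2
    exact (b1.trans b2).symm.trans (rv y)
  · exact (h.out hx).mono fun y b c => b ((rv y).2 c).1

end Vale.Agent.P277Z.SubH
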