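import Vale.Agent.P277Z.Sub.Geo

/-!
# P277Z, block SUB: the residue map
-/

set_option linter.all false

open scoped Manifold ContDiff Topology
open Set Filter
open Vale.Agent.P272.K (Cm Chart At cHess)
open Vale.Agent.P297 (Place)
open Vale.Agent.P285.H281.FD (Bd)
open Vale.Agent.P297Z

noncomputable section

namespace Vale.Agent.P277Z

open Lo SubH

variable {n N : ℕ} {K : Type} [Field K] [Algebra ℂ K]

theorem SubH.quo {M : Mdl n N K} {x : M.F} {b f : K} (hb : b ∈ M.O x) (hf : b * f ∈ M.O x) :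
    ∀ᶠ w in 𝓝 (x : M.W), M.val b w ≠ 0 → M.val f w = M.val (b * f) w / M.val b w := by
  filter_upwards [Hol.near hb, Hol.near hf, (M.can f).filter_mono (nhds_le_nhdsSet x.2),
    gen_near (M.at_pt (M.val_mul b f) x)] with w h1 h2 h3 h4 h0
  refine h3 _ (hol_div h2 h1 h0) ?_
  filter_upwards [h4, gen_of_nhds (hol_ne h1 h0)] with z a1 a2
  rw [a1, mul_div_cancel_left₀ _ a2]

theorem SubH.det_ne_iff {m : ℕ} {A : Cm m →L[ℂ] Cm m} :
    LinearMap.det (A : Cm m →ₗ[ℂ] Cm m) ≠ 0 ↔ Function.Injective A := by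
  rw [Ne, LinearMap.det_eq_zero_iff_ker_ne_bot, not_not, LinearMap.ker_eq_bot]
  rfl

namespace Emb

variable {M : Mdl (n + 1) N K} {P : Place K}

section geo

variable {G : Geo n N} (E : Emb G M P)

theorem cont : Continuous E.ι := E.ind.continuous

theorem hol (y : G.W) (a : M.W → ℂ) (ha : Hol (n + 1) a (E.ι y)) :
    Hol n (fun z => a (E.ι z)) y := hol_of_imm E.cont (fun c e h he => (E.imm y c e h he).1) ha

/-- the image of a point of the fibre -/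
def pt (y : G.F) : M.F := ⟨E.ι y, (E.mem y).1 y.2⟩

theorem on_pt (y : G.F) : M.On (E.pt y) P := (E.on _).2 ⟨y, rfl⟩

theorem pull {y : G.F} {p : M.W → Prop} (h : ∀ᶠ w in 𝓝 (E.pt y : M.W), p w) :
    ∀ᶠ z in 𝓝 (y : G.W), p (E.ι z) := (E.cont.tendsto y).eventually h

theorem push {y : G.W} {p : G.W → Prop} (h : ∀ᶠ z in 𝓝 y, p z) :
    ∀ᶠ w in 𝓝 (E.ι y), ∀ z, E.ι z = w → p z := by
  rwa [E.ind.nhds_eq_comap, eventually_comap] at h

theorem van {y : G.F} {f : K} (hf : f ∈ M.O (E.pt y)) (h : 0 < P.ord f) :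
    ∀ᶠ z in 𝓝 (y : G.W), M.val f (E.ι z) = 0 := by
  obtain ⟨t, ht⟩ := E.on_pt y
  filter_upwards [E.pull (M.nhds_mul (ht.dvd f hf h) ht.mem), E.pull (E.zero _ t ht)] with z a b
  rw [div_mul_cancel₀ _ (Bi.gn_ne ht), b.2 ⟨z, rfl⟩, mul_zero] at a
  exact a

theorem nz (hL : Loc M) {y : G.F} {b : K} (hb : b ∈ M.O (E.pt y)) (h0 : b ≠ 0)
    (h : P.ord b = 0) : ¬ ∀ᶠ z in 𝓝 (y : G.W), M.val b (E.ι z) = 0 := fun hz => by
  obtain ⟨t, ht⟩ := E.on_pt y
  obtain ⟨c, h1, h2⟩ := hL.red _ P t ht _ hb (by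
    filter_upwards [E.push hz, E.zero _ t ht] with w a1 a2 a3
    obtain ⟨z, rfl⟩ := a2.1 a3
    exact a1 z rfl)
  have h3 := Pl.ord_nonneg_of_mem P (ht.le _ (M.mem_O_of (f := b / t) h1 (by
    filter_upwards [gen_of_nhds h2, M.at_pt (M.val_div b t) _, M.at_pt (M.val_ne (Bi.gn_ne ht)) _]
      with w a1 a2 a3
    rw [a2, a1, mul_div_cancel_left₀ _ a3])))
  rw [Pl.ord_div P h0 (Bi.gn_ne ht), h, ht.ord] at h3
  omega

theorem rep (hL : Loc M) {y : G.F} {b f : K} (hb : b ∈ M.O (E.pt y)) (h0 : b ≠ 0)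
    (h : P.ord b = 0) (hf : b * f ∈ M.O (E.pt y)) : ∀ᶠ z in gen {(y : G.W)},
      M.val b (E.ι z) ≠ 0 ∧ M.val f (E.ι z) = M.val (b * f) (E.ι z) / M.val b (E.ι z) := by
  filter_upwards [hol_gen_ne (E.hol y _ hb) (E.nz hL hb h0 h), gen_of_nhds (E.pull (quo hb hf))]
    with z a1 a2 using ⟨a1, a2 a1⟩

theorem den (y : G.F) {f : K} (hf : f ∈ P.ring) :
    ∃ b ∈ M.O (E.pt y), b ≠ 0 ∧ P.ord b = 0 ∧ b * f ∈ M.O (E.pt y) :=
  (E.on_pt y).choose_spec.loc f hf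

theorem mer (hL : Loc M) {f : K} (hf : f ∈ P.ring) :
    ∀ y ∈ G.F, Mer n (fun z => M.val f (E.ι z)) y := fun y hy => by
  obtain ⟨b, h1, h2, h3, h4⟩ := E.den ⟨y, hy⟩ hf
  exact ⟨_, _, E.hol y _ h4, E.hol y _ h1, E.nz hL h1 h2 h3,
    (E.rep hL h1 h2 h3 h4).mono fun z a => (eq_div_iff a.1).1 a.2⟩

theorem val_add (hL : Loc M) (y : G.F) {f g : K} (hf : f ∈ P.ring) (hg : g ∈ P.ring) :
    ∀ᶠ z in gen {(y : G.W)}, M.val (f + g) (E.ι z) = M.val f (E.ι z) + M.val g (E.ι z) := by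
  obtain ⟨b, h1, h2, h3, h4⟩ := E.den y hf
  obtain ⟨c, k1, k2, k3, k4⟩ := E.den y hg
  have a1 := mul_mem h1 k1
  have a2 := mul_ne_zero h2 k2
  have a3 : P.ord (b * c) = 0 := by rw [Pl.ord_mul P h2 k2, h3, k3, add_zero]
  have a4 : b * c * f ∈ M.O (E.pt y) := by
    rw [mul_right_comm]
    exact mul_mem h4 k1
  have a5 : b * c * g ∈ M.O (E.pt y) := by
    rw [mul_assoc]
    exact mul_mem h1 k4
  filter_upwards [E.rep hL a1 a2 a3 a4, E.rep hL a1 a2 a3 a5, E.rep hL (f := f + g) a1 a2 a3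
    (by rw [mul_add]; exact add_mem a4 a5), gen_of_nhds (E.pull (M.nhds_add a4 a5))]
    with z c1 c2 c3 c4
  rw [c1.2, c2.2, c3.2, mul_add, c4, add_div]

theorem val_mul (hL : Loc M) (y : G.F) {f g : K} (hf : f ∈ P.ring) (hg : g ∈ P.ring) :
    ∀ᶠ z in gen {(y : G.W)}, M.val (f * g) (E.ι z) = M.val f (E.ι z) * M.val g (E.ι z) := by
  obtain ⟨b, h1, h2, h3, h4⟩ := E.den y hf
  obtain ⟨c, k1, k2, k3, k4⟩ := E.den y hg
  have a3 : P.ord (b * c) = 0 := by rw [Pl.ord_mul P h2 k2, h3, k3, add_zero]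
  have e : b * c * (f * g) = b * f * (c * g) := by ring
  filter_upwards [E.rep hL h1 h2 h3 h4, E.rep hL k1 k2 k3 k4, E.rep hL (f := f * g)
    (mul_mem h1 k1) (mul_ne_zero h2 k2) a3 (by rw [e]; exact mul_mem h4 k4),
    gen_of_nhds (E.pull (M.nhds_mul h4 k4)), gen_of_nhds (E.pull (M.nhds_mul h1 k1))]
    with z c1 c2 c3 c4 c5
  rw [c1.2, c2.2, c3.2, e, c4, c5, mul_div_mul_comm]

theorem img (y : G.F) (t : K) (ht : M.Gn (E.pt y) P t) (V : Set G.W) (hV : V ∈ 𝓝 (y : G.W)) :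
    ∀ᶠ z in 𝓝 (E.ι y), M.val t z = 0 → z ∈ E.ι '' V := by
  filter_upwards [E.push (p := fun z => z ∈ V) hV, E.zero _ t ht] with w a1 a2 a3
  obtain ⟨z, rfl⟩ := a2.1 a3
  exact ⟨z, a1 z rfl, rfl⟩

theorem jd_ne (y : G.F) {t : Fin (n + 1) → K} {i : Fin (n + 1)} (h : M.Coord (E.pt y) t)
    (hi : M.Gn (E.pt y) P (t i)) (c : Chart n G.W) (hc : At c y) :
    jd (fun j z => M.val (t (i.succAbove j)) (E.ι z)) c y ≠ 0 := by
  have he := at_chartAt (n := n + 1) (E.ι y)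
  generalize chartAt (Cm (n + 1)) (E.ι y) = e at he
  obtain ⟨h1, h2⟩ := E.imm y c e hc he
  have h3 : AnalyticAt ℂ (fun u j => M.val (t j) (e.symm u)) (e (E.ι (c.symm (c y)))) := by
    rw [c.left_inv hc.2]
    exact analyticAt_pi_iff.2 fun j => (h.1 j).1 e he
  have h4 : Function.Injective
      (fderiv ℂ (fun u j => M.val (t j) (e.symm u)) (e (E.ι (c.symm (c y))))) := by
    rw [c.left_inv hc.2]
    exact det_ne_iff.1 (h.2 e he)
  have h5 := HasFDerivAt.comp (f := fun z => e (E.ι (c.symm z))) (c y)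
    h3.differentiableAt.hasFDerivAt h1.differentiableAt.hasFDerivAt
  have h6 : AnalyticAt ℂ (fun z j => M.val (t (i.succAbove j)) (E.ι (c.symm z))) (c y) :=
    analyticAt_pi_iff.2 fun j => E.hol y _ (h.1 _).1 c hc
  have h7 := (ins i).hasFDerivAt.comp (c y) h6.differentiableAt.hasFDerivAt
  have h8 := h5.unique (h7.congr_of_eventuallyEq (by
    filter_upwards [comp_near E.cont hc he fun w j => M.val (t j) w,
      (tendsto_symm hc).eventually (E.pull (E.zero _ _ hi))] with z a1 a2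
    exact a1.trans (ins_drp (v := fun j => M.val (t j) (E.ι (c.symm z))) (a2.2 ⟨_, rfl⟩)).symm))
  refine det_ne_iff.2 fun u v huv => h2 (h4 ?_)
  have a := congrArg (fun L => L u) h8
  have b := congrArg (fun L => L v) h8
  simp only [ContinuousLinearMap.comp_apply] at a b
  rw [a, b]
  exact congrArg (ins i) huv

end geo

variable {L : Type} [Field L] [Algebra ℂ L] {S : Mdl n N L} (E : Emb S.toGeo M P) (hL : Loc M)

open Classical in
/-- the residue map -/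
def res (f : K) : L := if h : f ∈ P.ring then (S.surj _ (E.mer hL h)).choose else 0

theorem res_gen {f : K} (hf : f ∈ P.ring) (y : S.F) :
    ∀ᶠ z in gen {(y : S.W)}, S.val (E.res hL f) z = M.val f (E.ι z) := by
  rw [res, dif_pos hf]
  exact S.at_pt (S.surj _ (E.mer hL hf)).choose_spec y

theorem res_val (y : S.F) (f : K) (hf : f ∈ M.O (E.pt y)) :
    ∀ᶠ z in 𝓝 (y : S.W), S.val (E.res hL f) z = M.val f (E.ι z) :=
  S.val_eq y.2 (E.hol y _ hf) (E.res_gen hL (Bi.on_ct (E.on_pt y) f hf) y)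

theorem res_add (f : K) (hf : f ∈ P.ring) (g : K) (hg : g ∈ P.ring) :
    E.res hL (f + g) = E.res hL f + E.res hL g := by
  obtain ⟨y, hy⟩ := S.conn.nonempty
  refine S.eq_of_val ⟨y, hy⟩ ?_
  filter_upwards [E.res_gen hL hf ⟨y, hy⟩, E.res_gen hL hg ⟨y, hy⟩,
    E.res_gen hL (add_mem hf hg) ⟨y, hy⟩, E.val_add hL ⟨y, hy⟩ hf hg,
    S.at_pt (S.val_add _ _) ⟨y, hy⟩] with z a1 a2 a3 a4 a5
  rw [a5, a1, a2, a3, a4]

theorem res_mul (f : K) (hf : f ∈ P.ring) (g : K) (hg : g ∈ P.ring) :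
    E.res hL (f * g) = E.res hL f * E.res hL g := by
  obtain ⟨y, hy⟩ := S.conn.nonempty
  refine S.eq_of_val ⟨y, hy⟩ ?_
  filter_upwards [E.res_gen hL hf ⟨y, hy⟩, E.res_gen hL hg ⟨y, hy⟩,
    E.res_gen hL (mul_mem hf hg) ⟨y, hy⟩, E.val_mul hL ⟨y, hy⟩ hf hg,
    S.at_pt (S.val_mul _ _) ⟨y, hy⟩] with z a1 a2 a3 a4 a5
  rw [a5, a1, a2, a3, a4]

theorem res_const (c : ℂ) : E.res hL (algebraMap ℂ K c) = algebraMap ℂ L c := by
  obtain ⟨y, hy⟩ := S.conn.nonempty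
  refine S.eq_of_val ⟨y, hy⟩ (gen_of_nhds ?_)
  filter_upwards [E.res_val hL ⟨y, hy⟩ _ (algebraMap_mem _ c)] with z a
  rw [a, M.val_const, S.val_const]

theorem res_one : E.res hL 1 = 1 := by simpa using E.res_const hL 1

theorem res_zero (f : K) (hf : f ∈ P.ring) : E.res hL f = 0 ↔ f = 0 ∨ 0 < P.ord f := by
  refine ⟨fun h => by_contra fun k => ?_, fun h => ?_⟩
  · obtain ⟨k1, k2⟩ := not_or.1 k
    have h1 := ((Pl.ord_eq_zero_iff P k1).1
      (le_antisymm (not_lt.1 k2) (Pl.ord_nonneg_of_mem P hf))).2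
    have h2 := E.res_mul hL f hf _ h1
    rw [mul_inv_cancel₀ k1, E.res_one, h, zero_mul] at h2
    exact one_ne_zero h2
  · by_cases f0 : f = 0
    · simpa [f0] using E.res_const hL 0
    obtain ⟨y, hy⟩ := S.conn.nonempty
    obtain ⟨b, h1, h2, h3, h4⟩ := E.den ⟨y, hy⟩ hf
    refine S.eq_of_val ⟨y, hy⟩ ?_
    filter_upwards [E.res_gen hL hf ⟨y, hy⟩, E.rep hL h1 h2 h3 h4, gen_of_nhds (E.van h4 (by
      rw [Pl.ord_mul P h2 f0, h3, zero_add]
      exact h.resolve_left f0))] with z a1 a2 a3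
    rw [a1, a2.2, a3, zero_div, S.val_zero]

theorem coord (y : S.F) (t : Fin (n + 1) → K) (i : Fin (n + 1)) (h : M.Coord (E.pt y) t)
    (hi : M.Gn (E.pt y) P (t i)) : S.Coord y fun j => E.res hL (t (i.succAbove j)) := by
  have k := fun j => E.res_val hL y _ (h.1 (i.succAbove j)).1
  refine ⟨fun j => ⟨S.mem_O_of (E.hol y _ (h.1 _).1) (gen_of_nhds (k j)),
    (k j).self_of_nhds.trans (h.1 _).2⟩, fun c hc => ?_⟩
  have h1 : (fun z j => S.val (E.res hL (t (i.succAbove j))) (c.symm z)) =ᶠ[𝓝 (c y)]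
      fun z j => M.val (t (i.succAbove j)) (E.ι (c.symm z)) :=
    ((tendsto_symm hc).eventually (eventually_all.2 k)).mono fun z hz => funext hz
  have h2 := E.jd_ne y h hi c hc
  unfold jd at h2 ⊢
  rwa [h1.fderiv_eq]

/-- `Sub` from `Emb` -/
def toSub (h : ∀ u, ∃ f ∈ P.ring, E.res hL f = u) : Sub S M P where
  ι := E.ι
  cont := E.cont
  inj := E.inj
  hol y _ := E.hol y
  mem y := (E.mem y).1
  on x := (E.on x).trans ⟨fun ⟨y, hy⟩ => ⟨y, (E.mem y).2 (hy ▸ x.2), hy⟩, fun ⟨y, _, hy⟩ => ⟨y, hy⟩⟩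
  base := .of_forall E.base
  res := E.res hL
  res_add := E.res_add hL
  res_mul := E.res_mul hL
  res_const := E.res_const hL
  res_zero := E.res_zero hL
  res_surj := h
  val := E.res_val hL
  img := E.img
  coord := E.coord hL

end Emb

end Vale.Agent.P277Z
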